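import Crest.Agent.X212.Rb56.Fin
import Crest.Agent.X212.Crt72.Mv
import Crest.Agent.X212.Wrd81.MsB
import Crest.Agent.X212.Mon62.NkZ
import Crest.Agent.X212.Smt39.Rot
import Crest.Agent.X212.Smt39.Tw
import Crest.Agent.X212.Smt39.Main
import Crest.Agent.X212.Msi61.Main
import Crest.Agent.X212.Smt39.Win
import Crest.Agent.X212.Smt39.Res
import Crest.Agent.X212.Smt39.Den
import Crest.Agent.X212.Smt39.Q1
import Crest.Agent.X212.Smt39.Aft
import Crest.Agent.X212.Msc43.Ch
import Crest.Agent.X212.Msc43.Main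
import Crest.Agent.X212.Msi61.Fk
import Crest.Agent.X212.Kof81.Kpo
import Crest.Agent.X212.Gb50.Tri
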